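import Mathlib
import Vale.Agent.P105.SalemDefs

set_option linter.all false

/-!
# Salem numbers of degree four: the conjugates and the minimal polynomial
-/

open MeasureTheory Real Filter Topology
open scoped ENNReal

namespace Vale.Agent.P105.H538

open Polynomial

/-- integrality of the traces. -/
lemma trace_int {b : ℝ} {ζ : ℂ} (hb : 1 < b) (hζ : ‖ζ‖ = 1) (A C : ℤ)
    (hA : b + b⁻¹ + 2 * ζ.re = A) (hC : (b + b⁻¹) * (2 * ζ.re) = C) (n : ℕ) :
    ∃ k : ℤ, b ^ n + b⁻¹ ^ n + 2 * (ζ ^ n).re = k := by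
  have hb0 : b ≠ 0 := by positivity
  have hζ2 : ζ ^ 2 = (2 * ζ.re : ℝ) * ζ - 1 := by
    have h1 : ζ.re ^ 2 + ζ.im ^ 2 = 1 := by
      have h2 := Complex.sq_norm ζ
      rw [hζ, Complex.normSq_apply] at h2
      linarith only [h2]
    apply Complex.ext
    · simp only [pow_two, Complex.mul_re, Complex.ofReal_mul, Complex.ofReal_ofNat, Complex.sub_re, Complex.re_ofNat, Complex.ofReal_re, Complex.im_ofNat, Complex.ofReal_im, mul_zero, sub_zero, Complex.mul_im, zero_mul, add_zero, Complex.one_re]; linarith only [h1]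
    · simp only [pow_two, Complex.mul_im, Complex.ofReal_mul, Complex.ofReal_ofNat, Complex.sub_im, Complex.mul_re, Complex.re_ofNat, Complex.ofReal_re, Complex.im_ofNat, Complex.ofReal_im, mul_zero, sub_zero, zero_mul, add_zero, Complex.one_im]; ring
  have hτ : ∀ n : ℕ, (ζ ^ (n + 2)).re = 2 * ζ.re * (ζ ^ (n + 1)).re - (ζ ^ n).re := by
    intro n
    have h1 : ζ ^ (n + 2) = ((2 * ζ.re : ℝ) : ℂ) * ζ ^ (n + 1) - ζ ^ n := by
      rw [pow_add, hζ2]; ring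
    rw [h1, Complex.sub_re, Complex.re_ofReal_mul]
  have hB : ∀ n : ℕ, b ^ (n + 2) + b⁻¹ ^ (n + 2) =
      (b + b⁻¹) * (b ^ (n + 1) + b⁻¹ ^ (n + 1)) - (b ^ n + b⁻¹ ^ n) := by
    intro n
    have h1 : b * b⁻¹ = 1 := mul_inv_cancel₀ hb0
    have h2 : b * b⁻¹ ^ (n + 1) = b⁻¹ ^ n := by rw [pow_succ']; rw [← mul_assoc, h1, one_mul]
    have h3 : b⁻¹ * b ^ (n + 1) = b ^ n := by
      rw [pow_succ', ← mul_assoc, mul_comm b⁻¹, h1, one_mul]
    linear_combination -h2 - h3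
  have key : ∀ n : ℕ, (∃ k : ℤ, b ^ n + b⁻¹ ^ n + 2 * (ζ ^ n).re = k) ∧
      (∃ k : ℤ, 2 * ζ.re * (b ^ n + b⁻¹ ^ n) + (b + b⁻¹) * (2 * (ζ ^ n).re) = k) ∧
      (∃ k : ℤ, b ^ (n + 1) + b⁻¹ ^ (n + 1) + 2 * (ζ ^ (n + 1)).re = k) ∧
      (∃ k : ℤ, 2 * ζ.re * (b ^ (n + 1) + b⁻¹ ^ (n + 1)) +
        (b + b⁻¹) * (2 * (ζ ^ (n + 1)).re) = k) := by
    intro n
    induction n with
    | zero =>
      refine ⟨⟨4, by simp only [pow_zero, Complex.one_re, mul_one, Int.cast_ofNat]; norm_num⟩, ⟨2 * A, ?_⟩, ⟨A, ?_⟩, ⟨2 * C, ?_⟩⟩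
      · push_cast; rw [← hA]; simp only [pow_zero, Complex.one_re, mul_one]; ring
      · rw [← hA]; simp
      · push_cast; rw [← hC]; simp only [pow_one]; ring
    | succ n ih =>
      obtain ⟨⟨k1, h1⟩, ⟨k2, h2⟩, ⟨k3, h3⟩, ⟨k4, h4⟩⟩ := ih
      refine ⟨⟨k3, h3⟩, ⟨k4, h4⟩, ⟨A * k3 - k4 - k1, ?_⟩, ⟨C * k3 - k2, ?_⟩⟩
      · push_cast
        rw [← hA, ← h3, ← h4, ← h1, hτ, hB]
        ring
      · push_cast
        rw [← hC, ← h3, ← h2, hτ, hB]
        ring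
  exact (key n).1

/-- polynomials of degree at most three vanishing at an element of degree four. -/
lemma coeff_zero_of_vanish {ζ : ℂ} (h4 : (minpoly ℚ ζ).natDegree = 4)
    (p q r s : ℚ) (h : (p : ℂ) * ζ ^ 3 + q * ζ ^ 2 + r * ζ + s = 0) :
    p = 0 ∧ q = 0 ∧ r = 0 ∧ s = 0 := by
  set g : ℚ[X] := C p * X ^ 3 + C q * X ^ 2 + C r * X + C s with hg
  have hval : aeval ζ g = 0 := by
    rw [hg]
    simp only [map_add, map_mul, aeval_C, map_pow, aeval_X]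
    exact h
  have hdeg : g.natDegree < 4 := by
    have h1 : g.natDegree ≤ 3 := by
      rw [hg]
      compute_degree
    omega
  have hg0 : g = 0 := by
    by_contra hne
    have h1 := natDegree_le_natDegree (minpoly.degree_le_of_ne_zero ℚ ζ hne hval)
    omega
  have e0 : g.coeff 0 = s := by rw [hg]; simp only [coeff_add, mul_coeff_zero, coeff_C, ↓reduceIte, coeff_X_pow, OfNat.zero_ne_ofNat, mul_zero, add_zero, coeff_X, one_ne_zero, zero_add]
  have e1 : g.coeff 1 = r := by rw [hg]; simp [coeff_X, coeff_C]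
  have e2 : g.coeff 2 = q := by rw [hg]; simp only [coeff_add, coeff_C_mul, coeff_X_pow, Nat.reduceEqDiff, ↓reduceIte, mul_zero, mul_one, zero_add, coeff_mul_X, coeff_C_succ, add_zero]
  have e3 : g.coeff 3 = p := by rw [hg]; simp only [coeff_add, coeff_C_mul, coeff_X_pow, ↓reduceIte, mul_one, Nat.succ_ne_self, mul_zero, add_zero, coeff_mul_X, coeff_C_succ]
  rw [hg0, coeff_zero] at e0 e1 e2 e3
  exact ⟨e3.symm, e2.symm, e1.symm, e0.symm⟩
/-- (S1) From a Salem number of degree four to the trace identities. -/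
theorem exists_zeta_poly {b : ℝ} (h : Salem.IsSalem b) (h4 : (minpoly ℚ b).natDegree = 4) :
    IsIntegral ℤ b⁻¹ ∧ ∃ ζ : ℂ, ‖ζ‖ = 1 ∧
      (∀ n : ℤ, ∃ k : ℤ, b ^ n + b ^ (-n) + 2 * (ζ ^ n).re = k) ∧
      ∃ p : ℤ[X], p.Monic ∧ aeval b p = 0 ∧ aeval b⁻¹ p = 0 ∧ aeval ζ p = 0 := by
  obtain ⟨hb, hint, -, ζ, hζr, hζ⟩ := h
  have hbQ : IsIntegral ℚ b := hint.tower_top
  have hirr : Irreducible (minpoly ℚ b) := minpoly.irreducible hbQ
  have hmon : (minpoly ℚ b).Monic := minpoly.monic hbQ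
  have hmin : minpoly ℚ ζ = minpoly ℚ b :=
    (minpoly.eq_of_irreducible_of_monic hirr hζr hmon).symm
  have hζQ : IsIntegral ℚ ζ := ⟨minpoly ℚ b, hmon, hζr⟩
  have h4' : (minpoly ℚ ζ).natDegree = 4 := by rw [hmin, h4]
  have hmap : minpoly ℚ b = (minpoly ℤ b).map (algebraMap ℤ ℚ) :=
    minpoly.isIntegrallyClosed_eq_field_fractions' ℚ hint
  set F := minpoly ℤ b with hF
  have hFm : F.Monic := minpoly.monic hint
  have hF4 : F.natDegree = 4 := by
    rw [hmap, hFm.natDegree_map] at h4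
    exact h4
  obtain ⟨a, ha⟩ : ∃ a, F.coeff 3 = a := ⟨_, rfl⟩
  obtain ⟨c, hc⟩ : ∃ a, F.coeff 2 = a := ⟨_, rfl⟩
  obtain ⟨d, hd⟩ : ∃ a, F.coeff 1 = a := ⟨_, rfl⟩
  obtain ⟨e, he⟩ : ∃ a, F.coeff 0 = a := ⟨_, rfl⟩
  have hlead : F.coeff 4 = 1 := by rw [← hF4]; exact hFm
  have hFeq : F = X ^ 4 + C a * X ^ 3 + C c * X ^ 2 + C d * X + C e := by
    rw [F.as_sum_range' 5 (by omega)]
    simp only [Finset.sum_range_succ, Finset.sum_range_zero, ha, hc, hd, he, hlead, zero_add,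
      ← C_mul_X_pow_eq_monomial]
    simp only [pow_zero, mul_one, pow_one, map_one, one_mul]
    ring
  have hfb : ∀ {K : Type} [Field K] [CharZero K] (z : K), aeval z F =
      z ^ 4 + a * z ^ 3 + c * z ^ 2 + d * z + e := by
    intro K _ _ z
    rw [hFeq]
    simp
  have hb1 : b ^ 4 + a * b ^ 3 + c * b ^ 2 + d * b + e = 0 := by
    rw [← hfb b]
    exact minpoly.aeval ℤ b
  have hζ1 : ζ ^ 4 + a * ζ ^ 3 + c * ζ ^ 2 + d * ζ + e = 0 := by
    rw [← hfb ζ, ← aeval_map_algebraMap ℚ, ← hmap]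
    exact hζr
  have hnorm : ζ * (starRingEnd ℂ) ζ = 1 := by
    rw [Complex.mul_conj, Complex.normSq_eq_norm_sq, hζ]; simp
  have hζ2 : 1 + a * ζ + c * ζ ^ 2 + d * ζ ^ 3 + e * ζ ^ 4 = 0 := by
    have h1 := congrArg (starRingEnd ℂ) hζ1
    simp only [map_add, map_pow, map_mul, map_intCast, map_zero] at h1
    set z := (starRingEnd ℂ) ζ with hz
    have h2 : ζ ^ 4 * (z ^ 4 + a * z ^ 3 + c * z ^ 2 + d * z + e) = 0 := by rw [h1, mul_zero]
    have h3 : ζ ^ 4 * (z ^ 4 + a * z ^ 3 + c * z ^ 2 + d * z + e) =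
        (ζ * z) ^ 4 + a * ζ * (ζ * z) ^ 3 + c * ζ ^ 2 * (ζ * z) ^ 2 + d * ζ ^ 3 * (ζ * z) +
        e * ζ ^ 4 := by ring
    rw [h3, hnorm] at h2
    linear_combination h2
  obtain ⟨e1, e2, e3, e4⟩ := coeff_zero_of_vanish h4' ((e * a - d : ℤ) : ℚ)
    ((e * c - c : ℤ) : ℚ) ((e * d - a : ℤ) : ℚ) ((e * e - 1 : ℤ) : ℚ)
    (by push_cast; linear_combination (e : ℂ) * hζ1 - hζ2)
  rw [Int.cast_eq_zero] at e1 e2 e3 e4
  have he1 : e = 1 := by
    have h1 : (e - 1) * (e + 1) = 0 := by linear_combination e4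
    rcases mul_eq_zero.mp h1 with h2 | h2
    · omega
    · exfalso
      have h3 : e = -1 := by omega
      rw [h3] at e1 e2
      have hroot : (minpoly ℚ b).IsRoot 1 := by
        rw [IsRoot, hmap, eval_map_algebraMap, hfb (1 : ℚ), h3]
        have h5 : (d : ℚ) = -a := by
          have : d = -a := by omega
          rw [this]; push_cast; ring
        have h6 : (c : ℚ) = 0 := by
          have : c = 0 := by omega
          rw [this]; simp
        rw [h5, h6]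
        push_cast
        ring
      have h7 := degree_eq_one_of_irreducible_of_root hirr hroot
      rw [degree_eq_natDegree hmon.ne_zero, h4] at h7
      norm_num at h7
  have hd' : d = a := by rw [he1] at e1; omega
  rw [he1, hd'] at hb1 hζ1
  have hb0 : b ≠ 0 := by positivity
  have hζ0 : ζ ≠ 0 := by
    intro h0
    rw [h0, norm_zero] at hζ
    exact zero_ne_one hζ
  -- quadratic equations for the traces
  have hy : (b + b⁻¹) ^ 2 + a * (b + b⁻¹) + (c - 2) = 0 := by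
    have h1 : b ^ 2 * ((b + b⁻¹) ^ 2 + a * (b + b⁻¹) + (c - 2)) =
        b ^ 4 + a * b ^ 3 + c * b ^ 2 + a * b + (1 : ℤ) := by
      field_simp
      push_cast
      ring
    rw [hb1] at h1
    exact (mul_eq_zero.mp h1).resolve_left (pow_ne_zero _ hb0)
  have ht : (2 * ζ.re) ^ 2 + a * (2 * ζ.re) + (c - 2) = 0 := by
    have h0 : ((2 * ζ.re : ℝ) : ℂ) = ζ + (starRingEnd ℂ) ζ := (Complex.add_conj ζ).symm
    have h1 : ζ ^ 2 * ((ζ + (starRingEnd ℂ) ζ) ^ 2 + a * (ζ + (starRingEnd ℂ) ζ) + (c - 2)) =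
        ζ ^ 4 + a * ζ ^ 3 + c * ζ ^ 2 + a * ζ + (1 : ℤ) := by
      set z := (starRingEnd ℂ) ζ with hz
      push_cast
      linear_combination (ζ * z + 1 + 2 * ζ ^ 2 + a * ζ) * hnorm
    rw [hζ1] at h1
    have h2 := (mul_eq_zero.mp h1).resolve_left (pow_ne_zero _ hζ0)
    rw [← h0] at h2
    exact_mod_cast h2
  have hlt : 2 * ζ.re < b + b⁻¹ := by
    have h1 : ζ.re ≤ 1 := (Complex.re_le_norm ζ).trans hζ.le
    have h2 : b * b⁻¹ = 1 := mul_inv_cancel₀ hb0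
    have h3 : 0 < b⁻¹ := by positivity
    have h4 : b⁻¹ < 1 := inv_lt_one_of_one_lt₀ hb
    nlinarith only [h1, h2, hb]
  have hA : b + b⁻¹ + 2 * ζ.re = ((-a : ℤ) : ℝ) := by
    have h1 : (b + b⁻¹ - 2 * ζ.re) * (b + b⁻¹ + 2 * ζ.re + a) = 0 := by
      linear_combination hy - ht
    have h2 := (mul_eq_zero.mp h1).resolve_left (by linarith only [hlt])
    push_cast
    linarith only [h2]
  have hC : (b + b⁻¹) * (2 * ζ.re) = ((c - 2 : ℤ) : ℝ) := by
    have h1 : 2 * ζ.re = -a - (b + b⁻¹) := by push_cast at hA; linarith only [hA]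
    push_cast
    rw [h1]
    linear_combination -hy
  have hFinv : aeval b⁻¹ F = 0 := by
    rw [hfb, he1, hd']
    field_simp
    push_cast at hb1 ⊢
    linear_combination hb1
  refine ⟨⟨F, hFm, ?_⟩, ζ, hζ, fun n => ?_, F, hFm, minpoly.aeval ℤ b, hFinv, ?_⟩
  · exact hFinv
  · obtain ⟨m, rfl | rfl⟩ := n.eq_nat_or_neg
    · obtain ⟨k, hk⟩ := trace_int hb hζ _ _ hA hC m
      refine ⟨k, ?_⟩
      rw [← hk, zpow_neg, zpow_natCast, zpow_natCast, inv_pow]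
    · obtain ⟨k, hk⟩ := trace_int hb hζ _ _ hA hC m
      refine ⟨k, ?_⟩
      rw [← hk, neg_neg, zpow_neg, zpow_neg, zpow_natCast, zpow_natCast, inv_pow]
      have h1 : (ζ ^ m)⁻¹ = (starRingEnd ℂ) (ζ ^ m) := by
        refine inv_eq_of_mul_eq_one_right ?_
        rw [map_pow, ← mul_pow, hnorm, one_pow]
      rw [h1, Complex.conj_re]
      ring
  · rw [← aeval_map_algebraMap ℚ, ← hmap]
    exact hζr

end Vale.Agent.P105.H538
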